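import Vale.Agent.Lib.P331.Basic

/-!
P331: the expectation lemma (L2): `E[T] ≤ 3 E[E0] + 2 E[EA]`, where `T` is the largest
non-loop sample.  Independent proof by two pair swaps.
-/

namespace Vale.Agent.Lib.P331

open Finset

noncomputable section

open Classical

variable {E : Type} [Fintype E] [DecidableEq E]

namespace H6

/-- The top sample, when `e` carries it and all non-loop values are strictly below it. -/
def hR (M : Matroid E) (e : E) (S V : E → ℝ) : ℝ :=
  if (∀ f ∈ NL M, f ≠ e → S f ≤ S e) ∧ (∀ f ∈ NL M, V f < S e) then S e else 0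

/-- The value of `e` is strictly the largest non-loop value, exceeds its own sample and is at
least every other non-loop sample. -/
def QR (M : Matroid E) (e : E) (S V : E → ℝ) : Prop :=
  (∀ f ∈ NL M, f ≠ e → S f ≤ V e) ∧ S e < V e ∧ (∀ f ∈ NL M, f ≠ e → V f < V e)

/-- All non-loop values other than that of `e` are at most the top sample. -/
def GoodR (M : Matroid E) (e : E) (S V : E → ℝ) : Prop :=
  ∀ g ∈ NL M, g ≠ e → V g ≤ topS M S

/-- `QR e` holds, the value of `g` exceeds the top sample and is the largest value off `e`. -/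
def BadR (M : Matroid E) (e g : E) (S V : E → ℝ) : Prop :=
  QR M e S V ∧ topS M S < V g ∧ ∀ h ∈ NL M, h ≠ e → V h ≤ V g

/-- The sample of `g` is strictly the largest non-loop sample. -/
def Ustr (M : Matroid E) (g : E) (S : E → ℝ) : Prop :=
  ∀ f ∈ NL M, f ≠ g → S f < S g

theorem hR_nonneg (M : Matroid E) (e : E) (S V : E → ℝ) (hS : ∀ e, 0 ≤ S e) :
    0 ≤ hR M e S V := by
  unfold hR
  split_ifs
  · exact hS e
  · exact le_refl _

omit [DecidableEq E] in
theorem E0_nonneg (M : Matroid E) (S V : E → ℝ) : 0 ≤ E0 M S V := by
  unfold E0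
  split_ifs
  · exact topS_nonneg M S
  · exact le_refl _

theorem step1 (M : Matroid E) (S V : E → ℝ) (hS : ∀ e, 0 ≤ S e) :
    topS M S ≤ E0 M S V + ∑ e ∈ NL M, hR M e S V := by
  have hsum : 0 ≤ ∑ e ∈ NL M, hR M e S V :=
    Finset.sum_nonneg (fun e _ => hR_nonneg M e S V hS)
  by_cases hE : ∃ e ∈ NL M, topS M S ≤ V e
  · have h0 : E0 M S V = topS M S := by
      unfold E0
      rw [if_pos hE]
    linarith
  · have hE0 : E0 M S V = 0 := by
      unfold E0
      rw [if_neg hE]
    have hE' : ∀ e ∈ NL M, V e < topS M S :=
      fun e he => lt_of_not_ge (fun h => hE ⟨e, he, h⟩)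
    by_cases hne : (NL M).Nonempty
    · obtain ⟨e0, he0, hT⟩ := exists_eq_topS M S hS hne
      have hval : hR M e0 S V = topS M S := by
        unfold hR
        rw [if_pos]
        · exact hT
        · refine ⟨fun f hf _ => ?_, fun f hf => ?_⟩
          · rw [hT]
            exact le_topS M S hf
          · rw [hT]
            exact hE' f hf
      have hle : hR M e0 S V ≤ ∑ e ∈ NL M, hR M e S V :=
        Finset.single_le_sum (fun e _ => hR_nonneg M e S V hS) he0
      linarith
    · rw [Finset.not_nonempty_iff_eq_empty] at hne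
      rw [topS_eq_zero M S hne, hE0, hne]
      simp

theorem step2 (M : Matroid E) (e : E) (he : e ∈ NL M) (S V : E → ℝ) :
    hR M e (Function.update S e (V e)) (Function.update V e (S e))
      = if QR M e S V then V e else 0 := by
  have hiff : ((∀ f ∈ NL M, f ≠ e →
        Function.update S e (V e) f ≤ Function.update S e (V e) e) ∧
      (∀ f ∈ NL M, Function.update V e (S e) f < Function.update S e (V e) e)) ↔
      QR M e S V := by
    unfold QR
    simp only [Function.update_self]
    constructor
    · rintro ⟨h1, h2⟩
      refine ⟨fun f hf hfe => ?_, ?_, fun f hf hfe => ?_⟩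
      · have h := h1 f hf hfe
        rwa [Function.update_of_ne hfe] at h
      · have h := h2 e he
        rwa [Function.update_self] at h
      · have h := h2 f hf
        rwa [Function.update_of_ne hfe] at h
    · rintro ⟨h1, h2, h3⟩
      refine ⟨fun f hf hfe => ?_, fun f hf => ?_⟩
      · rw [Function.update_of_ne hfe]
        exact h1 f hf hfe
      · by_cases hfe : f = e
        · rw [hfe, Function.update_self]
          exact h2
        · rw [Function.update_of_ne hfe]
          exact h3 f hf hfe
  unfold hR
  by_cases hQ : QR M e S V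
  · rw [if_pos (hiff.mpr hQ), if_pos hQ, Function.update_self]
  · rw [if_neg (fun h => hQ (hiff.mp h)), if_neg hQ]

theorem step3 (M : Matroid E) (e : E) (S V : E → ℝ) (hV : ∀ e, 0 ≤ V e) :
    (if QR M e S V ∧ ¬ GoodR M e S V then V e else 0)
      ≤ ∑ g ∈ (NL M).erase e, (if BadR M e g S V then V e else 0) := by
  have hnn : ∀ g ∈ (NL M).erase e, 0 ≤ (if BadR M e g S V then V e else 0) := by
    intro g _
    split_ifs
    · exact hV e
    · exact le_refl _
  by_cases h : QR M e S V ∧ ¬ GoodR M e S V
  · rw [if_pos h]
    obtain ⟨hQ, hG⟩ := h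
    have hex : ∃ g0 ∈ NL M, g0 ≠ e ∧ topS M S < V g0 := by
      by_contra hcon
      apply hG
      intro g hg hge
      by_contra hlt
      exact hcon ⟨g, hg, hge, lt_of_not_ge hlt⟩
    obtain ⟨g0, hg0, hg0e, hg0T⟩ := hex
    have hne : ((NL M).erase e).Nonempty := ⟨g0, Finset.mem_erase.mpr ⟨hg0e, hg0⟩⟩
    obtain ⟨g, hg, hmax⟩ := Finset.exists_max_image ((NL M).erase e) V hne
    have hbad : BadR M e g S V := by
      refine ⟨hQ, ?_, fun h hh hhe => hmax h (Finset.mem_erase.mpr ⟨hhe, hh⟩)⟩
      exact lt_of_lt_of_le hg0T (hmax g0 (Finset.mem_erase.mpr ⟨hg0e, hg0⟩))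
    calc V e = (if BadR M e g S V then V e else 0) := by rw [if_pos hbad]
      _ ≤ _ := Finset.single_le_sum hnn hg
  · rw [if_neg h]
    exact Finset.sum_nonneg hnn

theorem step4 (M : Matroid E) (e g : E) (hg : g ∈ NL M) (hge : g ≠ e) (S V : E → ℝ)
    (hV : ∀ e, 0 ≤ V e) :
    (if BadR M e g (Function.update S g (V g)) (Function.update V g (S g))
        then (Function.update V g (S g)) e else 0)
      ≤ if QR M e S V ∧ GoodR M e S V ∧ Ustr M g S then V e else 0 := by
  have heg : e ≠ g := fun h => hge h.symm
  have hVe : Function.update V g (S g) e = V e := Function.update_of_ne heg _ _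
  have hSe : Function.update S g (V g) e = S e := Function.update_of_ne heg _ _
  by_cases hB : BadR M e g (Function.update S g (V g)) (Function.update V g (S g))
  · rw [if_pos hB, hVe]
    obtain ⟨⟨ha, hb, hc⟩, hd, he'⟩ := hB
    rw [hVe] at ha hb hc
    rw [hSe] at hb
    rw [Function.update_self] at hd he'
    have hU : Ustr M g S := by
      intro f hf hfg
      have h1 : Function.update S g (V g) f ≤ topS M (Function.update S g (V g)) :=
        le_topS M _ hf
      rw [Function.update_of_ne hfg] at h1
      linarith
    have hVg : V g < S g := by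
      have h1 : Function.update S g (V g) g ≤ topS M (Function.update S g (V g)) :=
        le_topS M _ hg
      rw [Function.update_self] at h1
      linarith
    have hSgT : S g ≤ topS M S := le_topS M S hg
    have hSgVe : S g < V e := by
      have h := hc g hg hge
      rwa [Function.update_self] at h
    have hQ : QR M e S V := by
      refine ⟨fun f hf hfe => ?_, hb, fun f hf hfe => ?_⟩
      · by_cases hfg : f = g
        · rw [hfg]
          exact hSgVe.le
        · have h := ha f hf hfe
          rwa [Function.update_of_ne hfg] at h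
      · by_cases hfg : f = g
        · rw [hfg]
          linarith
        · have h := hc f hf hfe
          rwa [Function.update_of_ne hfg] at h
    have hGd : GoodR M e S V := by
      intro h hh hhe
      by_cases hhg : h = g
      · rw [hhg]
        linarith
      · have h2 := he' h hh hhe
        rw [Function.update_of_ne hhg] at h2
        linarith
    rw [if_pos ⟨hQ, hGd, hU⟩]
  · rw [if_neg hB]
    split_ifs
    · exact hV e
    · exact le_refl _

theorem ustr_unique (M : Matroid E) (S : E → ℝ) {g g' : E} (hg : g ∈ NL M) (hg' : g' ∈ NL M)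
    (h : Ustr M g S) (h' : Ustr M g' S) : g = g' := by
  by_contra hne
  have h1 := h g' hg' (fun h => hne h.symm)
  have h2 := h' g hg hne
  linarith

theorem step5 (M : Matroid E) (e : E) (S V : E → ℝ) (hV : ∀ e, 0 ≤ V e) :
    ∑ g ∈ (NL M).erase e, (if QR M e S V ∧ GoodR M e S V ∧ Ustr M g S then V e else 0)
      ≤ if QR M e S V ∧ GoodR M e S V then V e else 0 := by
  by_cases h : QR M e S V ∧ GoodR M e S V
  · rw [if_pos h]
    by_cases hex : ∃ g ∈ (NL M).erase e, Ustr M g S
    · obtain ⟨g1, hg1, hU1⟩ := hex
      rw [Finset.sum_eq_single_of_mem g1 hg1]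
      · rw [if_pos ⟨h.1, h.2, hU1⟩]
      · intro g hg hne
        rw [if_neg]
        rintro ⟨_, _, hU⟩
        exact hne (ustr_unique M S (Finset.mem_of_mem_erase hg)
          (Finset.mem_of_mem_erase hg1) hU hU1)
    · rw [Finset.sum_eq_zero]
      · exact hV e
      · intro g hg
        rw [if_neg]
        rintro ⟨_, _, hU⟩
        exact hex ⟨g, hg, hU⟩
  · rw [if_neg h]
    apply le_of_eq
    apply Finset.sum_eq_zero
    intro g _
    rw [if_neg]
    rintro ⟨h1, h2, _⟩
    exact h ⟨h1, h2⟩

theorem qr_unique (M : Matroid E) (S V : E → ℝ) {e e' : E} (he : e ∈ NL M) (he' : e' ∈ NL M)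
    (h : QR M e S V) (h' : QR M e' S V) : e = e' := by
  by_contra hne
  have h1 := h.2.2 e' he' (fun h => hne h.symm)
  have h2 := h'.2.2 e he hne
  linarith

theorem step6 (M : Matroid E) (S V : E → ℝ) (hV : ∀ e, 0 ≤ V e) :
    ∑ e ∈ NL M, (if QR M e S V ∧ GoodR M e S V then V e else 0) ≤ E0 M S V + EA M S V := by
  have hEA_nn : ∀ e ∈ NL M, 0 ≤
      (if topS M S < V e ∧ ∀ e' ∈ NL M, e' ≠ e → V e' ≤ topS M S then V e else 0) := by
    intro e _
    split_ifs
    · exact hV e
    · exact le_refl _
  have hEA0 : 0 ≤ EA M S V := Finset.sum_nonneg hEA_nn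
  have hE00 := E0_nonneg M S V
  by_cases hex : ∃ e ∈ NL M, QR M e S V ∧ GoodR M e S V
  · obtain ⟨e0, he0, hQ, hG⟩ := hex
    rw [Finset.sum_eq_single_of_mem e0 he0]
    · rw [if_pos ⟨hQ, hG⟩]
      have hT : topS M S ≤ V e0 := by
        apply topS_le M S (hV e0)
        intro f hf
        by_cases hfe : f = e0
        · rw [hfe]
          exact hQ.2.1.le
        · exact hQ.1 f hf hfe
      rcases eq_or_lt_of_le hT with heq | hlt
      · have h0 : E0 M S V = topS M S := by
          unfold E0
          rw [if_pos ⟨e0, he0, hT⟩]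
        linarith
      · have h1 : (if topS M S < V e0 ∧ ∀ e' ∈ NL M, e' ≠ e0 → V e' ≤ topS M S
            then V e0 else 0) = V e0 := if_pos ⟨hlt, hG⟩
        have hterm : V e0 ≤ EA M S V := by
          calc V e0 = _ := h1.symm
            _ ≤ EA M S V := by
              unfold EA
              exact Finset.single_le_sum hEA_nn he0
        linarith
    · intro e he hne
      rw [if_neg]
      rintro ⟨hQ', _⟩
      exact hne (qr_unique M S V he he0 hQ' hQ)
  · rw [Finset.sum_eq_zero]
    · linarith
    · intro e he
      rw [if_neg]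
      rintro ⟨h1, h2⟩
      exact hex ⟨e, he, h1, h2⟩

/-- Expectation over independent samples and values with the product weights. -/
def Ex {Ω : Type} [Fintype Ω] (p : E → Ω → ℝ) (f : (E → Ω) → (E → Ω) → ℝ) : ℝ :=
  ∑ s : E → Ω, ∑ v : E → Ω, wt p s * wt p v * f s v

theorem Ex_mono {Ω : Type} [Fintype Ω] (p : E → Ω → ℝ) (hp : ∀ e ω, 0 ≤ p e ω)
    {f g : (E → Ω) → (E → Ω) → ℝ} (h : ∀ s v, f s v ≤ g s v) : Ex p f ≤ Ex p g := by
  unfold Ex
  refine Finset.sum_le_sum (fun s _ => Finset.sum_le_sum (fun v _ => ?_))
  exact mul_le_mul_of_nonneg_left (h s v) (mul_nonneg (wt_nonneg p hp s) (wt_nonneg p hp v))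

theorem Ex_add {Ω : Type} [Fintype Ω] (p : E → Ω → ℝ) (f g : (E → Ω) → (E → Ω) → ℝ) :
    Ex p (fun s v => f s v + g s v) = Ex p f + Ex p g := by
  unfold Ex
  rw [← Finset.sum_add_distrib]
  refine Finset.sum_congr rfl (fun s _ => ?_)
  rw [← Finset.sum_add_distrib]
  refine Finset.sum_congr rfl (fun v _ => ?_)
  ring

theorem Ex_sum {Ω : Type} [Fintype Ω] (p : E → Ω → ℝ) {ι : Type} (A : Finset ι)
    (f : ι → (E → Ω) → (E → Ω) → ℝ) :
    Ex p (fun s v => ∑ a ∈ A, f a s v) = ∑ a ∈ A, Ex p (f a) := by
  unfold Ex
  simp only [Finset.mul_sum]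
  calc ∑ s : E → Ω, ∑ v : E → Ω, ∑ a ∈ A, wt p s * wt p v * f a s v
      = ∑ s : E → Ω, ∑ a ∈ A, ∑ v : E → Ω, wt p s * wt p v * f a s v :=
        Finset.sum_congr rfl (fun s _ => Finset.sum_comm)
    _ = ∑ a ∈ A, ∑ s : E → Ω, ∑ v : E → Ω, wt p s * wt p v * f a s v := Finset.sum_comm

theorem Ex_swap {Ω : Type} [Fintype Ω] (p : E → Ω → ℝ) (f : (E → Ω) → (E → Ω) → ℝ) (e : E) :
    Ex p f = Ex p (fun s v => f (Function.update s e (v e)) (Function.update v e (s e))) :=
  sum_swap p f e

omit [Fintype E] in
theorem vals_update {Ω : Type} (val : E → Ω → ℝ) (s : E → Ω) (e : E) (a : Ω) :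
    vals val (Function.update s e a) = Function.update (vals val s) e (val e a) := by
  funext f
  unfold vals
  by_cases hf : f = e
  · subst hf
    simp
  · simp [Function.update_of_ne hf]

/-- `E[T] ≤ 3 E[E0] + 2 E[EA]` for the largest non-loop sample `T`. -/
theorem exp_T_le (M : Matroid E) {Ω : Type} [Fintype Ω] (p val : E → Ω → ℝ)
    (hp : ∀ e ω, 0 ≤ p e ω) (hval : ∀ e ω, 0 ≤ val e ω) :
    ∑ s : E → Ω, ∑ v : E → Ω, wt p s * wt p v * topS M (vals val s)
      ≤ 3 * ∑ s : E → Ω, ∑ v : E → Ω, wt p s * wt p v * E0 M (vals val s) (vals val v)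
        + 2 * ∑ s : E → Ω, ∑ v : E → Ω, wt p s * wt p v * EA M (vals val s) (vals val v) := by
  have hnn : ∀ (s : E → Ω) (e : E), 0 ≤ vals val s e := fun s e => hval e (s e)
  -- the good part for each element
  have hgood : ∀ e ∈ NL M,
      Ex p (fun s v => hR M e (vals val s) (vals val v))
        ≤ 2 * Ex p (fun s v => if QR M e (vals val s) (vals val v) ∧
            GoodR M e (vals val s) (vals val v) then vals val v e else 0) := by
    intro e he
    -- swap the pair `e`
    have h2 : Ex p (fun s v => hR M e (vals val s) (vals val v))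
        = Ex p (fun s v => if QR M e (vals val s) (vals val v) then vals val v e else 0) := by
      rw [Ex_swap p _ e]
      have hfun : (fun (s v : E → Ω) => hR M e (vals val (Function.update s e (v e)))
            (vals val (Function.update v e (s e))))
          = (fun s v => if QR M e (vals val s) (vals val v) then vals val v e else 0) := by
        funext s v
        rw [vals_update, vals_update]
        exact step2 M e he (vals val s) (vals val v)
      rw [hfun]
    -- split into good and bad
    have hsplit : Ex p (fun s v => if QR M e (vals val s) (vals val v) then vals val v e else 0)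
        = Ex p (fun s v => if QR M e (vals val s) (vals val v) ∧
            GoodR M e (vals val s) (vals val v) then vals val v e else 0)
          + Ex p (fun s v => if QR M e (vals val s) (vals val v) ∧
            ¬ GoodR M e (vals val s) (vals val v) then vals val v e else 0) := by
      rw [← Ex_add]
      have hfun : (fun (s v : E → Ω) =>
            if QR M e (vals val s) (vals val v) then vals val v e else 0)
          = (fun s v => (if QR M e (vals val s) (vals val v) ∧
              GoodR M e (vals val s) (vals val v) then vals val v e else 0)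
            + (if QR M e (vals val s) (vals val v) ∧
              ¬ GoodR M e (vals val s) (vals val v) then vals val v e else 0)) := by
        funext s v
        by_cases hQ : QR M e (vals val s) (vals val v)
        · by_cases hG : GoodR M e (vals val s) (vals val v)
          · rw [if_pos hQ, if_pos ⟨hQ, hG⟩, if_neg (fun h => h.2 hG)]
            ring
          · rw [if_pos hQ, if_neg (fun h => hG h.2), if_pos ⟨hQ, hG⟩]
            ring
        · rw [if_neg hQ, if_neg (fun h => hQ h.1), if_neg (fun h => hQ h.1)]
          ring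
      rw [hfun]
    -- the bad part is at most the good part
    have hbad : Ex p (fun s v => if QR M e (vals val s) (vals val v) ∧
            ¬ GoodR M e (vals val s) (vals val v) then vals val v e else 0)
        ≤ Ex p (fun s v => if QR M e (vals val s) (vals val v) ∧
            GoodR M e (vals val s) (vals val v) then vals val v e else 0) := by
      calc Ex p (fun s v => if QR M e (vals val s) (vals val v) ∧
            ¬ GoodR M e (vals val s) (vals val v) then vals val v e else 0)
          ≤ Ex p (fun s v => ∑ g ∈ (NL M).erase e,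
              (if BadR M e g (vals val s) (vals val v) then vals val v e else 0)) :=
            Ex_mono p hp (fun s v => step3 M e (vals val s) (vals val v) (hnn v))
        _ = ∑ g ∈ (NL M).erase e, Ex p (fun s v =>
              (if BadR M e g (vals val s) (vals val v) then vals val v e else 0)) :=
            Ex_sum p _ _
        _ ≤ ∑ g ∈ (NL M).erase e, Ex p (fun s v =>
              (if QR M e (vals val s) (vals val v) ∧ GoodR M e (vals val s) (vals val v) ∧
                Ustr M g (vals val s) then vals val v e else 0)) := by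
            refine Finset.sum_le_sum (fun g hg => ?_)
            have hgNL : g ∈ NL M := Finset.mem_of_mem_erase hg
            have hge : g ≠ e := Finset.ne_of_mem_erase hg
            rw [Ex_swap p _ g]
            refine Ex_mono p hp (fun s v => ?_)
            rw [vals_update, vals_update]
            exact step4 M e g hgNL hge (vals val s) (vals val v) (hnn v)
        _ = Ex p (fun s v => ∑ g ∈ (NL M).erase e,
              (if QR M e (vals val s) (vals val v) ∧ GoodR M e (vals val s) (vals val v) ∧
                Ustr M g (vals val s) then vals val v e else 0)) :=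
            (Ex_sum p _ _).symm
        _ ≤ _ := Ex_mono p hp (fun s v => step5 M e (vals val s) (vals val v) (hnn v))
    rw [h2, hsplit]
    linarith
  -- total
  have htot : Ex p (fun s _ => topS M (vals val s))
      ≤ Ex p (fun s v => E0 M (vals val s) (vals val v))
        + ∑ e ∈ NL M, Ex p (fun s v => hR M e (vals val s) (vals val v)) := by
    rw [← Ex_sum, ← Ex_add]
    exact Ex_mono p hp (fun s v => step1 M (vals val s) (vals val v) (hnn s))
  have hsum : ∑ e ∈ NL M, Ex p (fun s v => if QR M e (vals val s) (vals val v) ∧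
            GoodR M e (vals val s) (vals val v) then vals val v e else 0)
      ≤ Ex p (fun s v => E0 M (vals val s) (vals val v))
        + Ex p (fun s v => EA M (vals val s) (vals val v)) := by
    rw [← Ex_sum, ← Ex_add]
    exact Ex_mono p hp (fun s v => step6 M (vals val s) (vals val v) (hnn v))
  have hsum2 : ∑ e ∈ NL M, Ex p (fun s v => hR M e (vals val s) (vals val v))
      ≤ 2 * ∑ e ∈ NL M, Ex p (fun s v => if QR M e (vals val s) (vals val v) ∧
            GoodR M e (vals val s) (vals val v) then vals val v e else 0) := by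
    rw [Finset.mul_sum]
    exact Finset.sum_le_sum hgood
  have hfin : Ex p (fun s _ => topS M (vals val s))
      ≤ 3 * Ex p (fun s v => E0 M (vals val s) (vals val v))
        + 2 * Ex p (fun s v => EA M (vals val s) (vals val v)) := by
    linarith
  exact hfin

end H6

end

end Vale.Agent.Lib.P331
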